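import Vale.Agent.P042.WA.Spec
import Vale.Agent.P042.PS463.Loc
set_option autoImplicit false

/-! Interface of Theorem B: power saving for every intersective polynomial which is not
square-like at infinitely many primes. Only statements, as `def ... : Prop`. -/

namespace Vale.Agent.P042.WG

open Polynomial

/-- `p` is a good prime for `h`: there is a `p`-adic root whose multiplicity `m` is such that
`-1` is an `m`-th power (for instance a root of odd multiplicity). -/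
def GoodPrime (h : ℤ[X]) (p : ℕ) [Fact p.Prime] : Prop :=
  ∃ z u : ℤ_[p], (h.map (Int.castRingHom ℤ_[p])).eval z = 0 ∧
    u ^ ((h.map (Int.castRingHom ℤ_[p])).rootMultiplicity z) = -1

/-- G1: the irreducible factor of `h(X) + h(Y)` carrying the branch `Y - r = ζ (X - r) + ...`. -/
def G1 : Prop :=
  ∀ (p : ℕ) [Fact p.Prime] (h : (ZMod p)[X]) (r ζ : ZMod p) (m : ℕ), h ≠ 0 → h.natDegree < p →
    h.rootMultiplicity r = m → 1 ≤ m → ζ ^ m = -1 →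
    ∃ (F : (ZMod p)[X][X]) (d : ℕ), WA.GoodFac h F d ∧ d ≤ h.natDegree ∧
      Irreducible (WA.mapXY (algebraMap (ZMod p) (AlgebraicClosure (ZMod p))) F)

/-- G2: even weights at a root of multiplicity `m` with `ζ ^ m = -1`. -/
def EvenWeightG : Prop :=
  ∀ k : ℕ, 2 ≤ k → ∃ K : ℝ, ∃ P0 : ℕ, 0 ≤ K ∧ ∀ (p : ℕ) [Fact p.Prime], P0 ≤ p →
    ∀ (h : (ZMod p)[X]) (r ζ : ZMod p) (m : ℕ), h.natDegree = k →
      h.rootMultiplicity r = m → 1 ≤ m → ζ ^ m = -1 →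
      ∃ ν : ZMod p → ℝ, (∀ x, 0 ≤ ν x) ∧ (∀ x, ν x ≤ K) ∧ (∑ x, ν x = p) ∧
        (∀ x, h.derivative.eval x = 0 → ν x = 0) ∧
        (∀ a : ZMod p, (∑ x, (ν x : ℂ) * WA.ep p (a * h.eval x)).im = 0) ∧
        (∀ a : ZMod p, a ≠ 0 → ‖∑ x, (ν x : ℂ) * WA.ep p (a * h.eval x)‖ ≤
          K * (p : ℝ) ^ (3 / 4 : ℝ))

/-- admissible family, sector version: the sums lie near the positive half line. -/
structure AdmS (h : ℤ[X]) (B Q : ℕ) (κ η : ℝ) (u : ℕ → ℤ → ℝ) : Prop where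
  per : ∀ n, 1 ≤ n → n ≤ Q → ∀ x : ℤ, u n (x + n) = u n x
  bd : ∀ n, 1 ≤ n → n ≤ Q → ∀ x : ℤ, |u n x| ≤ (n : ℝ) ^ B
  one : ∑ n ∈ Finset.Icc 1 Q, PS463.mn h (u n) n 1 0 = 1
  sec : ∀ q : ℕ, 1 ≤ q → ∀ a : ℤ, IsCoprime a (q : ℤ) → ∃ w : ℝ, 0 ≤ w ∧
    ‖(∑ n ∈ Finset.Icc 1 Q, PS463.mn h (u n) n q a) - (w : ℂ)‖ ≤ κ * w + η

/-- G3: the analytic theorem, sector version (kernel = mixture of the kernels of PS463 over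
dyadic scales). -/
def G3 : Prop := ∀ (h : ℤ[X]), 2 ≤ h.natDegree → 0 < h.leadingCoeff → ∃ κ : ℝ, 0 < κ ∧ ∀ B : ℕ,
    ∃ C1 : ℕ, 1 ≤ C1 ∧ ∀ (Q : ℕ), 1 ≤ Q → ∀ (η : ℝ), 0 ≤ η → ∀ (u : ℕ → ℤ → ℝ),
      AdmS h B Q κ η u →
      ∀ N : ℕ, C1 * Q ^ C1 ≤ N → (rMax h N : ℝ) ≤ C1 * (η + 1 / Q) * N

/-- local data at all primes, finitely many primes `p < p0` being only nearly real -/
structure LocS (h : ℤ[X]) (v : ℕ → ℕ → ℤ → ℝ) (B p0 : ℕ) (κ C c1 : ℝ) : Prop where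
  one : ∀ (p : ℕ) (x : ℤ), v p 0 x = 1
  per : ∀ p i : ℕ, p.Prime → ∀ x : ℤ, v p i (x + (p ^ i : ℕ)) = v p i x
  bd : ∀ p i : ℕ, p.Prime → ∀ x : ℤ, |v p i x| ≤ (((p ^ i : ℕ) : ℝ)) ^ B
  zero : ∀ p i j : ℕ, p.Prime → j < i → ∀ a : ℤ, (j = 0 ∨ IsCoprime a (p : ℤ)) →
    PS463.mn h (v p i) (p ^ i) (p ^ j) a = 0
  im : ∀ p j : ℕ, p.Prime → p0 ≤ p → 1 ≤ j → ∀ a : ℤ, IsCoprime a (p : ℤ) →
    (∑ i ∈ Finset.range (j + 1), PS463.mn h (v p i) (p ^ i) (p ^ j) a).im = 0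
  ge : ∀ p j : ℕ, p.Prime → p0 ≤ p → 1 ≤ j → ∀ a : ℤ, IsCoprime a (p : ℤ) →
    0 ≤ (∑ i ∈ Finset.range (j + 1), PS463.mn h (v p i) (p ^ i) (p ^ j) a).re
  near : ∀ p j : ℕ, p.Prime → p < p0 → 1 ≤ j → ∀ a : ℤ, IsCoprime a (p : ℤ) →
    ∃ w : ℝ, 0 ≤ w ∧
      ‖(∑ i ∈ Finset.range (j + 1), PS463.mn h (v p i) (p ^ i) (p ^ j) a) - (w : ℂ)‖ ≤ κ * w
  sum : ∀ p j : ℕ, p.Prime → 1 ≤ j → ∀ a : ℤ, IsCoprime a (p : ℤ) →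
    ∑ i ∈ Finset.range (j + 1), ((p ^ i : ℕ) : ℝ) ^ c1 *
      ‖PS463.mn h (v p i) (p ^ i) (p ^ j) a‖ ≤ C
  sum1 : ∀ p j : ℕ, p.Prime → p0 ≤ p → 1 ≤ j → ∀ a : ℤ, IsCoprime a (p : ℤ) →
    ∑ i ∈ Finset.range (j + 1), ((p ^ i : ℕ) : ℝ) ^ c1 *
      ‖PS463.mn h (v p i) (p ^ i) (p ^ j) a‖ ≤ 1

/-- G4: power saving from nearly real local data -/
def G4 : Prop := ∀ (h : ℤ[X]), 2 ≤ h.natDegree → 0 < h.leadingCoeff →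
    (∃ p0 : ℕ, ∀ κ : ℝ, 0 < κ → ∃ (v : ℕ → ℕ → ℤ → ℝ) (B : ℕ) (C c1 : ℝ), 1 ≤ C ∧ 0 < c1 ∧
      LocS h v B p0 κ C c1) →
    ∃ c C : ℝ, 0 < c ∧ ∀ N : ℕ, 1 ≤ N → (rMax h N : ℝ) ≤ C * (N : ℝ) ^ (1 - c)

/-- G5: uniform lower bound for the cofactors of `p`-adic roots: for almost all primes the
cofactor of every `p`-adic root is a unit at the root. -/
def G5 : Prop := ∀ (h : ℤ[X]), h ≠ 0 → ∃ P0 : ℕ, ∀ (p : ℕ) [Fact p.Prime], P0 ≤ p →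
    ∀ (z : ℤ_[p]) (m : ℕ) (q : ℤ_[p][X]), 1 ≤ m →
      h.map (Int.castRingHom ℤ_[p]) = (X - C z) ^ m * q → q.eval z ≠ 0 → IsUnit (q.eval z)

/-- Theorem B. -/
def TheoremB : Prop := ∀ (h : ℤ[X]), 2 ≤ h.natDegree → 0 < h.leadingCoeff → Intersective h →
    (∃ P0 : ℕ, ∀ (p : ℕ) [Fact p.Prime], P0 ≤ p → GoodPrime h p) →
    ∃ c C : ℝ, 0 < c ∧ ∀ N : ℕ, 1 ≤ N → (rMax h N : ℝ) ≤ C * (N : ℝ) ^ (1 - c)

end Vale.Agent.P042.WG
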